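import Vale.Agent.P263C87.Core
import Vale.Agent.P263C25.Rows

/-!
# P263C, row FAM
-/

open OnePoint Topology Filter CategoryTheory

namespace Vale.Agent.P263C87

open Vale.Agent.P263.ST Vale.Agent.P263.FR Vale.Agent.P263C25

/-- the homotopy, constant near the two ends -/
theorem exists_G {m K : ℕ} {F : Bool → (Sph m ⟶ Sph K)} (hF : F false (pt m) = pt K)
    (hH : Htpc (pt m) (F false) (F true)) :
    ∃ G : (Fin m → ℝ) × ℝ → OnePoint (Fin K → ℝ), Continuous G ∧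
      (∀ b x, |x.2 - en b| ≤ 1 / 3 → G x = F b (at' x.1)) ∧
      ∀ R : ℝ, ∃ Z : Set (Fin m → ℝ), IsCompact Z ∧
        ∀ x, G x ∈ ((↑) '' {v : Fin K → ℝ | qn v ≤ R} : Set (OnePoint (Fin K → ℝ))) → x.1 ∈ Z := by
  obtain ⟨H⟩ := hH
  let A : unitInterval × OnePoint (Fin m → ℝ) → OnePoint (Fin K → ℝ) := fun q => H q
  have hA : Continuous A := H.continuous
  have hA0 : ∀ z, A (0, z) = F false z := fun z => H.apply_zero z
  have hA1 : ∀ z, A (1, z) = F true z := fun z => H.apply_one z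
  have hAi : ∀ t, A (t, ∞) = ∞ := fun t => (H.eq_fst t (x := pt m) rfl).trans hF
  refine ⟨fun x => A (Set.projIcc 0 1 zero_le_one (3 * x.2 - 1), (x.1 : OnePoint (Fin m → ℝ))),
    hA.comp ((continuous_projIcc.comp ((continuous_const.mul continuous_snd).sub
      continuous_const)).prodMk (OnePoint.continuous_coe.comp continuous_fst)), ?_, fun R => ?_⟩
  · intro b x hx
    have h1 := abs_le.1 hx
    cases b
    · have h2 : 3 * x.2 - 1 ≤ 0 := by
        have : x.2 - 0 ≤ 1 / 3 := h1.2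
        linarith
      show A (Set.projIcc 0 1 zero_le_one (3 * x.2 - 1), _) = _
      rw [Set.projIcc_of_le_left _ h2]
      exact hA0 _
    · have h2 : 1 ≤ 3 * x.2 - 1 := by
        have : -(1 / 3) ≤ x.2 - 1 := h1.1
        linarith
      show A (Set.projIcc 0 1 zero_le_one (3 * x.2 - 1), _) = _
      rw [Set.projIcc_of_right_le _ h2]
      exact hA1 _
  · have h1 : IsCompact (Prod.snd '' (A ⁻¹' ((↑) '' {v : Fin K → ℝ | qn v ≤ R}))) :=
      ((OnePoint.isClosed_image_coe.2 ⟨isClosed_le continuous_qn continuous_const,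
        isCompact_qn R⟩).preimage hA).isCompact.image continuous_snd
    refine ⟨(↑) ⁻¹' (Prod.snd '' (A ⁻¹' ((↑) '' {v : Fin K → ℝ | qn v ≤ R}))), ?_,
      fun x hx => ⟨_, hx, rfl⟩⟩
    refine (OnePoint.isOpenEmbedding_coe.isInducing.isCompact_preimage_iff ?_).2 h1
    rintro z ⟨⟨t, z'⟩, ⟨v, -, hv⟩, rfl⟩
    induction z' using OnePoint.rec with
    | infty => exact absurd (hv.trans (hAi t)) (OnePoint.coe_ne_infty v)
    | coe x => exact ⟨x, rfl⟩

theorem en_mem (b : Bool) : 0 ≤ en b ∧ en b ≤ 1 := by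
  cases b
  · exact ⟨le_rfl, zero_le_one⟩
  · exact ⟨zero_le_one, le_rfl⟩

theorem fam (hREL : REL) : FAM := by
  intro m K F hF hR hH
  obtain ⟨G, hG, hGb, hGc⟩ := exists_G (hF false) hH
  obtain ⟨r₀, hr₀, h₀⟩ := exists_smooth (hF false) (hR false)
  obtain ⟨r₁, hr₁, h₁⟩ := exists_smooth (hF true) (hR true)
  obtain ⟨r, hr, hs⟩ : ∃ r : ℝ, 0 < r ∧ ∀ b, ContDiff ℝ ((⊤ : ℕ∞) : WithTop ℕ∞)
      (fun x : Fin m → ℝ => kap r (F b (at' x))) ∧ ∀ x, F b (at' x) = at' 0 →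
        Function.Surjective (fderiv ℝ (fun x : Fin m → ℝ => kap r (F b (at' x))) x) := by
    refine ⟨min r₀ r₁, lt_min hr₀ hr₁, fun b => ?_⟩
    cases b
    · exact h₀ _ (lt_min hr₀ hr₁) (min_le_left _ _)
    · exact h₁ _ (lt_min hr₀ hr₁) (min_le_right _ _)
  have hop : ∀ R : ℝ, IsOpen ((↑) '' {v : Fin K → ℝ | qn v < R} : Set (OnePoint (Fin K → ℝ))) :=
    fun R => OnePoint.isOpen_image_coe.2 (isOpen_lt continuous_qn continuous_const)
  have hcl : ∀ R : ℝ, IsClosed ((↑) '' {v : Fin K → ℝ | qn v ≤ R} : Set (OnePoint (Fin K → ℝ))) :=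
    fun R => OnePoint.isClosed_image_coe.2 ⟨isClosed_le continuous_qn continuous_const,
      isCompact_qn R⟩
  have hct : ∀ b, Continuous fun x : (Fin m → ℝ) × ℝ => |x.2 - en b| := fun b =>
    (continuous_snd.sub continuous_const).abs
  let a : (Fin m → ℝ) × ℝ → (Fin K → ℝ) := fun x => kap r (G x)
  have ha : Continuous a := (continuous_kap hr).comp hG
  have hav : ∀ x (v : Fin K → ℝ), (v : OnePoint (Fin K → ℝ)) = G x → qn v ≤ r → a x = v := by
    intro x v hv h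
    show kap r (G x) = v
    rw [← hv]
    exact kap_of_le hr h
  let C : Set ((Fin m → ℝ) × ℝ) :=
    G ⁻¹' ((↑) '' {v : Fin K → ℝ | qn v ≤ r / 2}) ∩ Prod.snd ⁻¹' Set.Icc (-1) 2
  let V : Set ((Fin m → ℝ) × ℝ) :=
    G ⁻¹' ((↑) '' {v : Fin K → ℝ | qn v < r / 2}) ∩ Prod.snd ⁻¹' Set.Ioo (-1) 2
  let W : Set ((Fin m → ℝ) × ℝ) :=
    G ⁻¹' ((↑) '' {v : Fin K → ℝ | qn v < r}) ∩ ⋃ b, {x | |x.2 - en b| < 1 / 3}
  let A : Set ((Fin m → ℝ) × ℝ) := C ∩ ⋃ b, {x | |x.2 - en b| ≤ 1 / 4}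
  have hC : IsCompact C := by
    obtain ⟨Z, hZ, hZ'⟩ := hGc (r / 2)
    exact (hZ.prod (isCompact_Icc (a := (-1 : ℝ)) (b := 2))).of_isClosed_subset
      (((hcl _).preimage hG).inter (isClosed_Icc.preimage continuous_snd))
      fun x hx => ⟨hZ' x hx.1, hx.2⟩
  have hV : IsOpen V := ((hop _).preimage hG).inter (isOpen_Ioo.preimage continuous_snd)
  have hW : IsOpen W := ((hop _).preimage hG).inter
    (isOpen_iUnion fun b => isOpen_lt (hct b) continuous_const)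
  have hA : IsCompact A := hC.inter_right
    (isClosed_iUnion_of_finite fun b => isClosed_le (hct b) continuous_const)
  have hAW : A ⊆ W := by
    rintro x ⟨⟨⟨v, hv, hvx⟩, -⟩, hx⟩
    obtain ⟨b, hb⟩ := Set.mem_iUnion.1 hx
    have hv' : qn v ≤ r / 2 := hv
    have hb' : |x.2 - en b| ≤ 1 / 4 := hb
    exact ⟨⟨v, show qn v < r by linarith, hvx⟩,
      Set.mem_iUnion.2 ⟨b, show |x.2 - en b| < 1 / 3 by linarith⟩⟩
  have hev : ∀ b (x : (Fin m → ℝ) × ℝ), |x.2 - en b| < 1 / 3 →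
      a =ᶠ[𝓝 x] (fun z : Fin m → ℝ => kap r (F b (at' z))) ∘ Prod.fst := by
    intro b x hx
    filter_upwards [(isOpen_lt (hct b) continuous_const).mem_nhds hx] with y hy
    show kap r (G y) = kap r (F b (at' y.1))
    rw [hGb b y (le_of_lt hy)]
  have hsm : ContDiffOn ℝ ((⊤ : ℕ∞) : WithTop ℕ∞) a W := by
    intro x hx
    obtain ⟨b, hb⟩ := Set.mem_iUnion.1 hx.2
    exact (((hs b).1.comp contDiff_fst).contDiffAt.congr_of_eventuallyEq
      (hev b x hb)).contDiffWithinAt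
  have hreg : ∀ x ∈ W, a x = 0 → Function.Surjective (fderiv ℝ a x) := by
    rintro x ⟨⟨v, hv, hvx⟩, hx⟩ h0
    obtain ⟨b, hb⟩ := Set.mem_iUnion.1 hx
    have h1 : v = 0 := (hav x v hvx (le_of_lt hv)).symm.trans h0
    have h2 : F b (at' x.1) = at' 0 := by
      rw [← hGb b x (le_of_lt hb), ← hvx, h1]
      rfl
    have h3 : HasFDerivAt ((fun z : Fin m → ℝ => kap r (F b (at' z))) ∘ Prod.fst)
        ((fderiv ℝ (fun z : Fin m → ℝ => kap r (F b (at' z))) x.1).comp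
          (ContinuousLinearMap.fst ℝ (Fin m → ℝ) ℝ)) x :=
      (((hs b).1.differentiable (by simp)) x.1).hasFDerivAt.comp x hasFDerivAt_fst
    rw [(hev b x hb).fderiv_eq, h3.fderiv]
    intro w
    obtain ⟨u, hu⟩ := (hs b).2 x.1 h2 w
    exact ⟨(u, 0), hu⟩
  obtain ⟨ε, hε, hεr⟩ : ∃ ε : ℝ, 0 < ε ∧ ∀ v : Fin K → ℝ, ‖v‖ ≤ ε → qn v < r / 2 := by
    obtain ⟨ε, hε, h⟩ := Metric.isOpen_iff.1 (isOpen_lt (continuous_qn (K := K))
      (continuous_const (y := r / 2))) 0 (show qn (0 : Fin K → ℝ) < r / 2 by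
        rw [qn_zero]; linarith)
    exact ⟨ε / 2, by linarith, fun v hv => h (mem_ball_zero_iff.2 (by linarith))⟩
  obtain ⟨g, hg, hga, hgA, hgr⟩ := hREL ((Fin m → ℝ) × ℝ) K C W A a hC hW hA hAW ha.continuousOn
    hsm hreg ε hε
  have hgv : ∀ b (x : (Fin m → ℝ) × ℝ), x ∈ C → |x.2 - en b| ≤ 1 / 4 →
      F b (at' x.1) = at' (g x) := by
    intro b x hx hb
    obtain ⟨v, hv, hvx⟩ := hx.1
    have hv' : qn v ≤ r / 2 := hv
    rw [hgA x ⟨hx, Set.mem_iUnion.2 ⟨b, hb⟩⟩, hav x v hvx (by linarith),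
      ← hGb b x (by linarith), ← hvx]
    rfl
  have hVC : V ⊆ C := by
    rintro x ⟨⟨v, hv, hvx⟩, hx⟩
    have hv' : qn v < r / 2 := hv
    exact ⟨⟨v, hv'.le, hvx⟩, Set.Ioo_subset_Icc_self hx⟩
  let Φ : Bool → (Fin m → ℝ) → OnePoint (Fin K → ℝ) := fun b z => F b (at' z)
  have hΦ : ∀ b, Continuous (Φ b) := fun b =>
    (F b).hom.continuous.comp OnePoint.continuous_coe
  refine ⟨{ g := g, smooth := hg, C := C, V := V, cC := hC, oV := hV, sub := hVC
            far := ?_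
            reg := hgr
            O := fun b => Φ b ⁻¹' ((↑) '' {v : Fin K → ℝ | qn v < r / 2})
            oO := fun b => (hop _).preimage (hΦ b)
            zO := fun b v => ⟨0, show qn (0 : Fin K → ℝ) < r / 2 by rw [qn_zero]; linarith,
              v.2.symm⟩
            eqO := ?_
            zero := ?_ }⟩
  · intro x hx h0 h1 hz
    obtain ⟨v, hv, hvx⟩ := hx.1
    have hv' : qn v ≤ r / 2 := hv
    have h2 := hga x hx
    rw [hz, hav x v hvx (by linarith), zero_sub, norm_neg] at h2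
    exact ⟨⟨v, hεr v h2, hvx⟩, show -1 < x.2 by linarith, show x.2 < 2 by linarith⟩
  · rintro b z t ⟨v, hv, hvz⟩ ht
    have h1 := abs_le.1 ht
    have h2 := en_mem b
    have h3 : (z, t) ∈ V := ⟨⟨v, hv, hvz.trans (hGb b (z, t) (ht.trans (by norm_num))).symm⟩,
      show -1 < t by linarith [h1.1, h2.1], show t < 2 by linarith [h1.2, h2.2]⟩
    exact ⟨h3, hgv b (z, t) (hVC h3) ht⟩
  · intro b z t hx ht hz
    rw [hgv b (z, t) hx ht, hz]

end Vale.Agent.P263C87
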