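import Mathlib.Analysis.SpecialFunctions.SmoothTransition
import Vale.Agent.P263B6.Tub

/-!
# P263C: a smooth family of maps from a homotopy

`exists_fam` : for a based homotopy between two regular maps `F₀, F₁ : Sᵐ → Sᴷ` there is a smooth map
`g : ℝ × ℝᵐ → ℝᴷ`, near the homotopy where this is small, and equal to `F₀`, `F₁` at the two ends.
-/

open OnePoint Topology Filter CategoryTheory

namespace Vale.Agent.P263C87

open Vale.Agent.P263.ST Vale.Agent.P263.FR

theorem contDiff_qn' {K : ℕ} {k : WithTop ℕ∞} : ContDiff ℝ k (qn : (Fin K → ℝ) → ℝ) := by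
  show ContDiff ℝ k fun v : Fin K → ℝ => ∑ i, v i ^ 2
  exact ContDiff.sum fun i _ => (contDiff_apply ℝ ℝ i).pow 2

/-- the coordinates, cut off -/
noncomputable def kap {K : ℕ} (r : ℝ) (w : OnePoint (Fin K → ℝ)) : Fin K → ℝ :=
  Real.smoothTransition (2 - qn (crd w) / r) • crd w

section kap

variable {K : ℕ} {r : ℝ}

theorem kap_coe (v : Fin K → ℝ) :
    kap r (v : OnePoint (Fin K → ℝ)) = Real.smoothTransition (2 - qn v / r) • v := rfl

theorem kap_infty : kap r (∞ : OnePoint (Fin K → ℝ)) = 0 := smul_zero _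

theorem kap_of_le (hr : 0 < r) {v : Fin K → ℝ} (h : qn v ≤ r) :
    kap r (v : OnePoint (Fin K → ℝ)) = v := by
  have h1 : qn v / r ≤ 1 := (div_le_one hr).2 h
  rw [kap_coe, Real.smoothTransition.one_of_one_le (by linarith), one_smul]

theorem kap_of_ge (hr : 0 < r) {v : Fin K → ℝ} (h : 2 * r ≤ qn v) :
    kap r (v : OnePoint (Fin K → ℝ)) = 0 := by
  have h1 : 2 ≤ qn v / r := (le_div_iff₀ hr).2 h
  rw [kap_coe, Real.smoothTransition.zero_of_nonpos (by linarith), zero_smul]

theorem contDiff_kap : ContDiff ℝ ((⊤ : ℕ∞) : WithTop ℕ∞)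
    fun v : Fin K → ℝ => kap r (v : OnePoint (Fin K → ℝ)) :=
  (Real.smoothTransition.contDiff.comp (contDiff_const.sub (contDiff_qn'.div_const r))).smul
    contDiff_id

theorem continuous_kap (hr : 0 < r) : Continuous (kap r : OnePoint (Fin K → ℝ) → _) := by
  rw [continuous_iff_continuousAt]
  intro w
  induction w using OnePoint.rec with
  | infty =>
    have h1 : ∀ᶠ w in 𝓝 (∞ : OnePoint (Fin K → ℝ)), kap r w = 0 := by
      filter_upwards [eventually_of_tendsto (tendsto_id (x := 𝓝 (∞ : OnePoint (Fin K → ℝ))))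
        (2 * r)] with w hw
      induction w using OnePoint.rec with
      | infty => exact kap_infty
      | coe v => exact kap_of_ge hr (hw v rfl).le
    exact (continuousAt_const (y := (0 : Fin K → ℝ))).congr (h1.mono fun w hw => hw.symm)
  | coe v =>
    rw [OnePoint.continuousAt_coe]
    exact contDiff_kap.continuous.continuousAt

end kap

section rad

variable {m K : ℕ} {F : Sph m ⟶ Sph K}

/-- small values are taken in a given neighbourhood of the zeros -/
theorem exists_rad (hF : F (pt m) = pt K) {O : Set (Fin m → ℝ)} (hO : IsOpen O)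
    (hZ : ∀ x, F (at' x) = at' 0 → x ∈ O) :
    ∃ r : ℝ, 0 < r ∧ ∀ x v, F (at' x) = at' v → qn v ≤ r → x ∈ O := by
  let G : OnePoint (Fin m → ℝ) → OnePoint (Fin K → ℝ) := fun z => F z
  have hG : Continuous G := F.hom.continuous
  have h1 : IsCompact (G '' ((↑) '' O : Set (OnePoint (Fin m → ℝ)))ᶜ) :=
    (OnePoint.isOpen_image_coe.2 hO).isClosed_compl.isCompact.image hG
  have h2 : IsOpen ((fun v : Fin K → ℝ => (v : OnePoint (Fin K → ℝ))) ⁻¹'
      (G '' ((↑) '' O : Set (OnePoint (Fin m → ℝ)))ᶜ)ᶜ) :=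
    h1.isClosed.isOpen_compl.preimage OnePoint.continuous_coe
  have h3 : (0 : Fin K → ℝ) ∈ ((fun v : Fin K → ℝ => (v : OnePoint (Fin K → ℝ))) ⁻¹'
      (G '' ((↑) '' O : Set (OnePoint (Fin m → ℝ)))ᶜ)ᶜ) := by
    rintro ⟨z, hz, hz0⟩
    induction z using OnePoint.rec with
    | infty => exact OnePoint.infty_ne_coe _ (hF.symm.trans hz0)
    | coe x => exact hz ⟨x, hZ x hz0, rfl⟩
  obtain ⟨ε, hε, hb⟩ := Metric.isOpen_iff.1 h2 0 h3
  refine ⟨(ε / 2) ^ 2, by positivity, fun x v hx hv => ?_⟩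
  have h4 : v ∈ Metric.ball (0 : Fin K → ℝ) ε := by
    rw [mem_ball_zero_iff]
    exact (norm_le_of_qn hv (by positivity)).trans_lt (by linarith)
  by_contra hxO
  refine hb h4 ⟨(x : OnePoint (Fin m → ℝ)), ?_, hx⟩
  rintro ⟨y, hy, hyx⟩
  rw [OnePoint.coe_eq_coe] at hyx
  exact hxO (hyx ▸ hy)

/-- the cut off map is smooth -/
theorem exists_smooth (hF : F (pt m) = pt K) (hR : Regular F) :
    ∃ r₀ : ℝ, 0 < r₀ ∧ ∀ r, 0 < r → r ≤ r₀ → ContDiff ℝ ((⊤ : ℕ∞) : WithTop ℕ∞)
      (fun x : Fin m → ℝ => kap r (F (at' x))) ∧ ∀ x, F (at' x) = at' 0 →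
        Function.Surjective (fderiv ℝ (fun x : Fin m → ℝ => kap r (F (at' x))) x) := by
  obtain ⟨O, f, hO, hf, hFO, hreg⟩ := hR
  obtain ⟨r₁, hr₁, h1⟩ := exists_rad hF hO fun x hx => (hreg x hx).1
  refine ⟨r₁ / 3, by positivity, fun r hr hrr => ⟨?_, ?_⟩⟩
  · rw [contDiff_iff_contDiffAt]
    intro x
    by_cases hx : x ∈ O
    · have h2 : ContDiffAt ℝ ((⊤ : ℕ∞) : WithTop ℕ∞)
          (fun y : Fin m → ℝ => kap r ((f y : Fin K → ℝ) : OnePoint (Fin K → ℝ))) x :=
        contDiff_kap.contDiffAt.comp x (hf.contDiffAt (hO.mem_nhds hx))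
      refine h2.congr_of_eventuallyEq ?_
      filter_upwards [hO.mem_nhds hx] with y hy
      rw [hFO y hy]
      rfl
    · have h2 : IsClosed ((fun y : Fin m → ℝ => (show OnePoint (Fin K → ℝ) from F (at' y))) ⁻¹'
          ((↑) '' {v : Fin K → ℝ | qn v ≤ 2 * r})) :=
        (OnePoint.isClosed_image_coe.2 ⟨isClosed_le continuous_qn continuous_const,
          isCompact_qn _⟩).preimage (F.hom.continuous.comp OnePoint.continuous_coe)
      have h3 : x ∉ ((fun y : Fin m → ℝ => (show OnePoint (Fin K → ℝ) from F (at' y))) ⁻¹'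
          ((↑) '' {v : Fin K → ℝ | qn v ≤ 2 * r})) := by
        rintro ⟨v, hv, hvx⟩
        exact hx (h1 x v hvx.symm (le_trans hv (by linarith)))
      refine (contDiffAt_const (c := (0 : Fin K → ℝ))).congr_of_eventuallyEq ?_
      filter_upwards [h2.isOpen_compl.mem_nhds h3] with y hy
      have h4 : (show OnePoint (Fin K → ℝ) from F (at' y)) ∉
          ((↑) '' {v : Fin K → ℝ | qn v ≤ 2 * r} : Set (OnePoint (Fin K → ℝ))) := hy
      show kap r (show OnePoint (Fin K → ℝ) from F (at' y)) = 0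
      revert h4
      generalize (show OnePoint (Fin K → ℝ) from F (at' y)) = w
      intro h4
      induction w using OnePoint.rec with
      | infty => exact kap_infty
      | coe v => exact kap_of_ge hr (not_lt.1 fun h => h4 ⟨v, h.le, rfl⟩)
  · intro x hx
    obtain ⟨hxO, hs⟩ := hreg x hx
    have h0 : f x = 0 := OnePoint.coe_injective ((hFO x hxO).symm.trans hx)
    have hc : ContinuousAt (fun y => qn (f y)) x :=
      continuous_qn.continuousAt.comp (hf.continuousOn.continuousAt (hO.mem_nhds hxO))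
    have h2 : ∀ᶠ y in 𝓝 x, qn (f y) < r := by
      apply hc.eventually (Iio_mem_nhds _)
      show qn (f x) < r
      rw [h0, qn_zero]
      exact hr
    have h3 : (fun x : Fin m → ℝ => kap r (F (at' x))) =ᶠ[𝓝 x] f := by
      filter_upwards [h2, hO.mem_nhds hxO] with y hy hyO
      rw [hFO y hyO]
      exact kap_of_le hr hy.le
    rw [h3.fderiv_eq]
    exact hs

end rad

end Vale.Agent.P263C87
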